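import Vale.Agent.P226.Full.Main

/-!
# The Gaussian propeller conjecture
-/

open MeasureTheory ProbabilityTheory Real Vale.Agent.P226

namespace Vale.Agent.Results.P226.PropellerConjecture

theorem result :
    ∀ (d k : ℕ) (A : Fin k → Set (EuclideanSpace ℝ (Fin d))),
      (∀ i, NullMeasurableSet (A i) (stdGaussian (EuclideanSpace ℝ (Fin d)))) →
      Pairwise (Function.onFun (AEDisjoint (stdGaussian (EuclideanSpace ℝ (Fin d)))) A) →
      score A ≤ 9 / (8 * π) :=
  fun _ _ _ hm hd => Full.score_le_propeller hm hd

end Vale.Agent.Results.P226.PropellerConjecture
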